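import Vale.Agent.P215Z.Frm.Step

/-!
# P215: evaluation on a face, linear differential equations modulo an ideal
-/

noncomputable section
namespace Vale.Agent.P215Z.Flt
open MvPolynomial Classical
variable {O : Type} [CommRing O]

theorem face_self (p : Pt) (k : Fin 4) (c : Bool) :
    face p k c k = if c then p k + 1 else p k - 1 := Function.update_self ..

theorem face_ne (p : Pt) {k j : Fin 4} (h : j ≠ k) (c : Bool) : face p k c j = p j :=
  Function.update_of_ne h ..

theorem even_face {p : Pt} {k : Fin 4} (hk : Odd (p k)) (c : Bool) : Even (face p k c k) := by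
  rw [face_self]
  split_ifs
  · exact hk.add_one
  · exact hk.sub_odd odd_one

theorem face_comm (p : Pt) {k l : Fin 4} (hkl : k ≠ l) (c c' : Bool) :
    face (face p k c) l c' = face (face p l c') k c := by
  funext j
  by_cases h1 : j = k
  · subst h1
    rw [face_ne _ hkl, face_self, face_self, face_ne _ hkl]
  · by_cases h2 : j = l
    · subst h2
      rw [face_self, face_ne _ h1, face_ne _ h1, face_self]
    · rw [face_ne _ h2, face_ne _ h1, face_ne _ h1, face_ne _ h2]

theorem isFace_refl (p : Pt) : IsFace p p := fun _ => Or.inl rfl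

theorem eq_of_odd {τ p : Pt} (h : IsFace τ p) {k : Fin 4} (hk : Odd (τ k)) : τ k = p k := by
  rcases h k with h1 | ⟨h1, h2⟩
  · exact h1
  · exfalso
    obtain ⟨u, hu⟩ := hk
    obtain ⟨v, hv⟩ := h1
    rcases abs_eq (zero_le_one' ℤ) |>.mp h2 with h3 | h3 <;> omega

theorem isFace_trans {σ τ p : Pt} (h : IsFace σ τ) (h' : IsFace τ p) : IsFace σ p := by
  intro j
  rcases h j with h1 | ⟨h1, h2⟩
  · rw [h1]
    exact h' j
  · have h3 := eq_of_odd h' h1
    rw [h3] at h1 h2
    exact Or.inr ⟨h1, h2⟩

theorem isFace_face {p : Pt} {k : Fin 4} (hk : Odd (p k)) (c : Bool) : IsFace (face p k c) p := by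
  intro j
  by_cases h : j = k
  · subst h
    refine Or.inr ⟨hk, ?_⟩
    rw [face_self]
    split_ifs <;> simp
  · exact Or.inl (face_ne _ h c)

/-- the first coordinates of `τ` and the last coordinates of `p` -/
def mix (τ p : Pt) (n : ℕ) : Pt := fun j => if j.val < n then τ j else p j

theorem mix_lt {τ p : Pt} {n : ℕ} {j : Fin 4} (h : j.val < n) : mix τ p n j = τ j := if_pos h

theorem mix_ge {τ p : Pt} {n : ℕ} {j : Fin 4} (h : ¬ j.val < n) : mix τ p n j = p j := if_neg h

/-- induction over the directions in which a face differs from the cell -/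
theorem isFace_ind {p τ : Pt} (h : IsFace τ p) (Q : Pt → Prop) (h0 : Q p)
    (hs : ∀ σ k c, IsFace σ p → IsFace τ (face σ k c) → σ k = p k → Odd (p k) → Q σ →
      Q (face σ k c)) : Q τ := by
  have f1 : ∀ n, IsFace (mix τ p n) p := fun n j => by
    by_cases h6 : j.val < n
    · rw [mix_lt h6]
      exact h j
    · exact Or.inl (mix_ge h6)
  have f2 : ∀ n, IsFace τ (mix τ p n) := fun n j => by
    by_cases h6 : j.val < n
    · exact Or.inl (mix_lt h6).symm
    · rw [mix_ge h6]
      exact h j
  have key : ∀ n : ℕ, Q (mix τ p n) := by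
    intro n
    induction n with
    | zero => exact h0
    | succ n ih =>
      by_cases hn : ∃ k : Fin 4, k.val = n ∧ τ k ≠ p k
      · obtain ⟨k, rfl, hk⟩ := hn
        obtain ⟨h1, h2⟩ := (h k).resolve_left hk
        have h3 : mix τ p k k = p k := mix_ge (lt_irrefl _)
        have h4 : mix τ p (k + 1) = face (mix τ p k) k (decide (τ k = p k + 1)) := by
          funext j
          by_cases h6 : j = k
          · rw [h6, mix_lt (Nat.lt_succ_self _), face_self, h3]
            rcases abs_eq (zero_le_one' ℤ) |>.mp h2 with h5 | h5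
            · rw [if_pos (decide_eq_true (by omega))]
              omega
            · rw [if_neg (by rw [decide_eq_true_eq]; omega)]
              omega
          · have h7 : j.val ≠ k.val := fun h8 => h6 (Fin.ext h8)
            rw [face_ne _ h6]
            exact if_congr (by omega) rfl rfl
        rw [h4]
        exact hs _ k _ (f1 _) (h4 ▸ f2 _) h3 h1 ih
      · refine (congrArg Q (funext fun j => ?_)).mp ih
        by_cases h6 : j.val = n
        · rw [mix_ge (by omega), mix_lt (by omega)]
          by_contra h7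
          exact hn ⟨j, h6, fun h8 => h7 h8.symm⟩
        · exact if_congr (by omega) rfl rfl
  exact (congrArg Q (funext fun j => mix_lt j.isLt)).mp (key 4)

/-- restriction from the cell `p` to its face `τ` -/
def evF (p τ : Pt) : RR O →ₐ[O] RR O :=
  aeval fun j => if τ j = p j then X j else if τ j = p j + 1 then 1 else 0

/-- restriction of matrices -/
def evFM (p τ : Pt) : MM O →+* MM O := (evF (O := O) p τ : RR O →+* RR O).mapMatrix

theorem evFM_apply (p τ : Pt) (x : MM O) (i j : Fin 2) : evFM p τ x i j = evF p τ (x i j) := rfl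

theorem evFM_self (p : Pt) (x : MM O) : evFM p p x = x := by
  ext1 i j
  rw [evFM_apply, evF]
  simp only [if_true, aeval_X_left, AlgHom.coe_id, id]

theorem evFM_face {p σ : Pt} {k : Fin 4} (hk : σ k = p k) (c : Bool) (x : MM O) :
    evFM p (face σ k c) x = evM k c (evFM p σ x) := by
  have h1 : (evF p (face σ k c) : RR O →ₐ[O] RR O) = (ev k c).comp (evF p σ) := by
    refine algHom_ext fun j => ?_
    rw [AlgHom.comp_apply, evF, evF, aeval_X, aeval_X]
    by_cases h : j = k
    · subst h
      rw [face_self, if_pos hk, ev, aeval_X, if_pos rfl, hk]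
      cases c
      · rw [if_neg Bool.false_ne_true, if_neg Bool.false_ne_true, if_neg (by omega),
          if_neg (by omega)]
      · rw [if_pos rfl, if_pos rfl, if_neg (by omega), if_pos rfl]
    · rw [face_ne _ h]
      split_ifs
      · rw [ev, aeval_X, if_neg h]
      · rw [map_one]
      · rw [map_zero]
  ext1 i j
  rw [evFM_apply, h1]
  rfl

theorem at0_evFM {p τ : Pt} (h : ∀ j, τ j ≠ p j + 1) (x : MM O) : at0 (evFM p τ x) = at0 x := by
  have h1 : (constantCoeff : RR O →+* O).comp (evF (O := O) p τ : RR O →+* RR O) =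
      constantCoeff := by
    refine ringHom_ext (fun r => ?_) fun j => ?_
    · simp [evF]
    · rw [RingHom.comp_apply, RingHom.coe_coe, evF, aeval_X, if_neg (h j)]
      split_ifs
      · rfl
      · rw [map_zero, constantCoeff_X]
  ext i j
  exact RingHom.congr_fun h1 (x i j)

variable [Algebra ℚ O]

theorem pd_evFM {p τ : Pt} (h : IsFace τ p) (j : Fin 4) (x : MM O) :
    pd j (evFM p τ x) = if τ j = p j then evFM p τ (pd j x) else 0 := by
  refine isFace_ind h
    (fun τ => pd j (evFM p τ x) = if τ j = p j then evFM p τ (pd j x) else 0) ?_ ?_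
  · rw [evFM_self, if_pos rfl, evFM_self]
  · intro σ k c _ _ hk _ ih
    rw [evFM_face hk, pd_evM, ih]
    by_cases h1 : j = k
    · subst h1
      rw [if_pos rfl, if_neg]
      rw [face_self, hk]
      split_ifs <;> omega
    · rw [if_neg h1, face_ne _ h1]
      split_ifs
      · rw [evFM_face hk]
      · simpa using evM_sub k c (0 : MM O) 0

theorem inI_evFM {p τ : Pt} (h : IsFace τ p) {b : Ideal O} {x : MM O} (hx : InI b x) :
    InI b (evFM p τ x) :=
  isFace_ind h (fun τ => InI b (evFM p τ x)) (by rwa [evFM_self]) fun σ k c _ _ hk _ ih => by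
    rw [evFM_face hk]
    exact ih.evM k c

omit [Algebra ℚ O] in
theorem evFM_A {K : Set Pt} (hK : Cx K) {A : F1 O} (hA : Good1 K A) {p τ : Pt} (hp : p ∈ K)
    (h : IsFace τ p) {i : Fin 4} (hi : Odd (τ i)) : evFM p τ (A p i) = A τ i := by
  refine isFace_ind h (fun σ => evFM p σ (A p i) = A σ i) (evFM_self _ _) ?_
  intro σ k c hσ hτ hk hk' ih
  have h1 : Odd (σ k) := hk ▸ hk'
  have h4 : Odd (face σ k c i) := eq_of_odd hτ hi ▸ hi
  have h2 : i ≠ k := fun h3 => by
    rw [h3] at h4
    exact Int.not_odd_iff_even.mpr (even_face h1 c) h4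
  have h3 : Odd (σ i) := face_ne σ h2 c ▸ h4
  rw [evFM_face hk, ih, hA.compat σ (hK.isFace hp hσ) k c i h1 h3 h2]

end Vale.Agent.P215Z.Flt
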