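import Vale.Agent.P215Z.Frm.Flat.Ev

/-!
# P215: the canonical frame of a cell
-/

noncomputable section
namespace Vale.Agent.P215Z.Flt
open MvPolynomial Classical
variable {O : Type} [CommRing O]

section
variable {b : Ideal O} {x y z : MM O}

theorem sub_trans (h : InI b (x - y)) (h' : InI b (y - z)) : InI b (x - z) := by
  have h1 := InC.add h h'
  rwa [sub_add_sub_cancel] at h1

theorem sub_symm (h : InI b (x - y)) : InI b (y - x) := by
  have h1 := InC.neg h
  rwa [neg_sub] at h1

theorem sub_refl (x : MM O) : InI b (x - x) := by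
  rw [sub_self]
  exact InC.zero

theorem sub_mul_right (h : InI b (x - y)) (z : MM O) : InI b (x * z - y * z) := by
  rw [← sub_mul]
  exact InC.mul_right h z

theorem sub_mul_left (h : InI b (x - y)) (z : MM O) : InI b (z * x - z * y) := by
  rw [← mul_sub]
  exact InC.mul_left h z

end

theorem cst_mul (y y' : M2 O) : cst (y * y') = (cst y * cst y' : MM O) :=
  Matrix.map_mul (f := (C : O →+* RR O))

theorem cst_one : cst (1 : M2 O) = (1 : MM O) :=
  Matrix.map_one _ (map_zero (C : O →+* RR O)) (map_one (C : O →+* RR O))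

theorem at0_one : at0 (1 : MM O) = 1 :=
  Matrix.map_one _ (map_zero (constantCoeff : RR O →+* O)) (map_one (constantCoeff : RR O →+* O))

theorem at0_sub (x y : MM O) : at0 (x - y) = at0 x - at0 y :=
  Matrix.map_sub _ (map_sub (constantCoeff : RR O →+* O)) x y

theorem cst_sub (y y' : M2 O) : cst (y - y') = (cst y - cst y' : MM O) :=
  Matrix.map_sub _ (map_sub (C : O →+* RR O)) y y'

theorem at0U_mul (g g' : (MM O)ˣ) : at0U (g * g') = at0U g * at0U g' := map_mul _ _ _

theorem at0U_inv (g : (MM O)ˣ) : at0U g⁻¹ = (at0U g)⁻¹ := map_inv _ _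

theorem at0U_one : at0U (1 : (MM O)ˣ) = 1 := map_one _

theorem curv_swap (A : F1 O) (p : Pt) (k l : Fin 4) : curv A p l k = -curv A p k l := by
  simp only [curv, dd1, Ring.lie_def]
  abel

theorem curv_self (A : F1 O) (p : Pt) (k : Fin 4) : curv A p k k = 0 := by
  simp only [curv, dd1, Ring.lie_def, sub_self, add_zero]

theorem upTo_zero (p : Pt) : upTo p 0 = wv p := rfl

theorem upTo_four (p : Pt) : upTo p 4 = p := funext fun j => if_pos j.isLt

theorem isFace_wv (p : Pt) : IsFace (wv p) p := by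
  intro j
  rw [wv]
  split_ifs with h
  · exact Or.inr ⟨h, by simp⟩
  · exact Or.inl rfl

theorem isFace_upTo (p : Pt) (n : ℕ) : IsFace (upTo p n) p := by
  intro j
  rw [upTo]
  split_ifs
  · exact Or.inl rfl
  · exact isFace_wv p j

theorem even_wv (p : Pt) (j : Fin 4) : Even (wv p j) := by
  rw [wv]
  split_ifs with h
  · exact h.sub_odd odd_one
  · exact Int.not_odd_iff_even.mp h

theorem upTo_cases (p : Pt) (n : ℕ) : upTo p (n + 1) = upTo p n ∨
    ∃ k : Fin 4, k.val = n ∧ Odd (upTo p (n + 1) k) ∧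
      upTo p n = face (upTo p (n + 1)) k false := by
  by_cases hn : ∃ k : Fin 4, k.val = n ∧ Odd (p k)
  · obtain ⟨k, rfl, hk⟩ := hn
    have h1 : upTo p (k + 1) k = p k := if_pos (Nat.lt_succ_self _)
    refine Or.inr ⟨k, rfl, h1 ▸ hk, funext fun j => ?_⟩
    by_cases h : j = k
    · rw [h, face_self, h1, if_neg Bool.false_ne_true, upTo, if_neg (lt_irrefl _), wv, if_pos hk]
    · have h7 : j.val ≠ k.val := fun h8 => h (Fin.ext h8)
      rw [face_ne _ h]
      exact if_congr (by omega) rfl rfl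
  · refine Or.inl (funext fun j => ?_)
    by_cases h6 : j.val = n
    · rw [upTo, upTo, if_pos (by omega), if_neg (by omega), wv, if_neg fun h => hn ⟨j, h6, h⟩]
    · exact if_congr (by omega) rfl rfl

theorem adj_face (p : Pt) (k : Fin 4) (c : Bool) : Adj (face p k c) p := by
  refine Or.inr ⟨k, ?_⟩
  cases c
  · refine Or.inl (funext fun j => ?_)
    by_cases h : j = k
    · rw [h, Pi.sub_apply, face_self, ee, Pi.single_eq_same, if_neg Bool.false_ne_true]
      ring
    · rw [Pi.sub_apply, face_ne _ h, ee, Pi.single_eq_of_ne h, sub_self]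
  · refine Or.inr (funext fun j => ?_)
    by_cases h : j = k
    · rw [h, Pi.sub_apply, face_self, Pi.neg_apply, ee, Pi.single_eq_same, if_pos rfl]
      ring
    · rw [Pi.sub_apply, face_ne _ h, Pi.neg_apply, ee, Pi.single_eq_of_ne h, sub_self, neg_zero]

theorem adj_refl (p : Pt) : Adj p p := Or.inl (sub_self p)

theorem adj_symm {p p' : Pt} (h : Adj p p') : Adj p' p := by
  rcases h with h | ⟨k, h | h⟩
  · exact Or.inl (by rw [← neg_sub, h, neg_zero])
  · exact Or.inr ⟨k, Or.inr (by rw [← h, neg_sub])⟩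
  · exact Or.inr ⟨k, Or.inl (by rw [← neg_sub, h, neg_neg])⟩

theorem adj_upTo (p : Pt) (n : ℕ) : Adj (upTo p n) (upTo p (n + 1)) := by
  rcases upTo_cases p n with h | ⟨k, _, _, h⟩
  · rw [h]
    exact adj_refl _
  · rw [h]
    exact adj_face _ _ _

/-- the primal edge through a cell of dimension one -/
theorem midp_face {m : Pt} {k : Fin 4} (c : Bool) : midp (face m k c) (face m k (!c)) = m := by
  funext j
  rw [midp]
  by_cases h : j = k
  · rw [h, face_self, face_self]
    cases c <;> simp <;> omega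
  · rw [face_ne _ h, face_ne _ h]
    omega

theorem midp_comm (v v' : Pt) : midp v v' = midp v' v := by
  funext j
  rw [midp, midp, add_comm]

theorem face_true_eq (m : Pt) (k : Fin 4) : face m k true = face m k false + 2 • ee k := by
  funext j
  rw [Pi.add_apply, Pi.smul_apply, ee]
  by_cases h : j = k
  · rw [h, face_self, face_self, Pi.single_eq_same]
    simp
    ring
  · rw [face_ne _ h, face_ne _ h, Pi.single_eq_of_ne h, smul_zero, add_zero]

theorem face_add (v : Pt) (k : Fin 4) : face (v + ee k) k false = v := by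
  funext j
  by_cases h : j = k
  · rw [h, face_self, if_neg Bool.false_ne_true, Pi.add_apply, ee, Pi.single_eq_same]
    ring
  · rw [face_ne _ h, Pi.add_apply, ee, Pi.single_eq_of_ne h, add_zero]

theorem pAdj_cases {K : Set Pt} {v v' : Pt} (h : PAdj K v v') : ∃ m k c, m ∈ K ∧ Odd (m k) ∧
    (∀ j, j ≠ k → Even (m j)) ∧ v = face m k c ∧ v' = face m k (!c) := by
  obtain ⟨h1, h2, k, h3⟩ := h
  have key : ∀ w : Pt, (∀ j, Even (w j)) → Odd ((w + ee k) k) ∧
      ∀ j, j ≠ k → Even ((w + ee k) j) := fun w hw =>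
    ⟨by rw [Pi.add_apply, ee, Pi.single_eq_same]; exact (hw k).add_one,
      fun j hj => by rw [Pi.add_apply, ee, Pi.single_eq_of_ne hj, add_zero]; exact hw j⟩
  rcases h3 with h3 | h3
  · have h4 : v' = face (v + ee k) k true := by rw [face_true_eq, face_add, h3]
    have h5 := midp_face (m := v + ee k) (k := k) false
    rw [face_add, Bool.not_false, ← h4] at h5
    exact ⟨v + ee k, k, false, h5 ▸ h2, (key v h1).1, (key v h1).2, (face_add v k).symm, h4⟩
  · have h4 : v = face (v' + ee k) k true := by rw [face_true_eq, face_add, h3, sub_add_cancel]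
    have h5 := midp_face (m := v' + ee k) (k := k) true
    rw [Bool.not_true, face_add, ← h4] at h5
    have h6 : ∀ j, Even (v' j) := fun j => by
      rw [h3, Pi.sub_apply, Pi.smul_apply, two_nsmul]
      exact (h1 j).sub ⟨_, rfl⟩
    exact ⟨v' + ee k, k, true, h5 ▸ h2, (key v' h6).1, (key v' h6).2, h4, (face_add v' k).symm⟩

theorem pAdj_face {K : Set Pt} {m : Pt} {k : Fin 4} (c : Bool) (hm : m ∈ K) (hk : Odd (m k))
    (h : ∀ j, j ≠ k → Even (m j)) : PAdj K (face m k c) (face m k (!c)) := by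
  refine ⟨fun j => ?_, (midp_face c).symm ▸ hm, k, ?_⟩
  · by_cases hj : j = k
    · rw [hj]
      exact even_face hk c
    · rw [face_ne _ hj]
      exact h j hj
  · cases c
    · exact Or.inl (face_true_eq m k)
    · exact Or.inr (by rw [face_true_eq, add_sub_cancel_right]; rfl)

theorem pAdj_symm {K : Set Pt} {v v' : Pt} (h : PAdj K v v') : PAdj K v' v := by
  obtain ⟨m, k, c, h1, h2, h3, rfl, rfl⟩ := pAdj_cases h
  have h4 := pAdj_face (!c) h1 h2 h3
  rwa [Bool.not_not] at h4

theorem wv_two {σ : Pt} {k l : Fin 4} (hkl : k ≠ l) (hk : Odd (σ k)) (hl : Odd (σ l))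
    (h0 : ∀ j, j ≠ k → j ≠ l → Even (σ j)) : wv σ = face (face σ l false) k false := by
  funext j
  rw [wv]
  by_cases h1 : j = k
  · rw [h1, if_pos hk, face_self, face_ne _ hkl, if_neg Bool.false_ne_true]
  · rw [face_ne _ h1]
    by_cases h2 : j = l
    · rw [h2, if_pos hl, face_self, if_neg Bool.false_ne_true]
    · rw [face_ne _ h2, if_neg (Int.not_odd_iff_even.mpr (h0 j h1 h2))]

section
variable {A : F1 O} {b : Ideal O} {p : Pt} {g : Pt → (MM O)ˣ}
  (h : ∀ τ τ', IsFace τ p → IsFace τ' p → Adj τ τ' →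
    InI b ((g τ * step A τ τ' : (MM O)ˣ) - (g τ' : (MM O)ˣ) : MM O))
include h

theorem holN_frame (x : ℕ → Pt) (n : ℕ) (hx : ∀ i ≤ n, IsFace (x i) p)
    (hadj : ∀ i < n, Adj (x i) (x (i + 1))) :
    InI b ((g (x 0) * holN (step A) x n : (MM O)ˣ) - (g (x n) : (MM O)ˣ) : MM O) := by
  induction n with
  | zero =>
    rw [holN, mul_one]
    exact sub_refl _
  | succ n ih =>
    rw [holN, ← mul_assoc]
    exact sub_trans (sub_mul_right (ih (fun i hi => hx i (Nat.le_succ_of_le hi))
      fun i hi => hadj i (Nat.lt_succ_of_lt hi)) _)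
      (h _ _ (hx n (Nat.le_succ n)) (hx _ le_rfl) (hadj n (Nat.lt_succ_self n)))

theorem pe_frame {m : Pt} (hm : IsFace m p) {k : Fin 4} (hk : Odd (m k)) :
    InI b ((g (face m k false) * pe A (face m k false) (face m k true) : (MM O)ˣ) -
      (g (face m k true) : (MM O)ˣ) : MM O) := by
  have h1 : midp (face m k false) (face m k true) = m := midp_face false
  rw [pe, h1, ← mul_assoc]
  exact sub_trans (sub_mul_right (h _ _ (isFace_trans (isFace_face hk false) hm) hm
    (adj_face m k false)) _) (h _ _ hm (isFace_trans (isFace_face hk true) hm)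
      (adj_symm (adj_face m k true)))

end

variable [Algebra ℚ O]

theorem pe_face (A : F1 O) {m : Pt} {k : Fin 4} (c : Bool) (hk : Odd (m k)) :
    pe A (face m k c) (face m k (!c)) = inn A m k c * (inn A m k (!c))⁻¹ := by
  rw [pe, midp_face, step_in A c hk, step_out A _ hk]

theorem pe_symm (A : F1 O) (v v' : Pt) : pe A v' v = (pe A v v')⁻¹ := by
  rw [pe, pe, mul_inv_rev, ← step_symm, ← step_symm, midp_comm]

theorem evM_inv {k : Fin 4} {c : Bool} {T : (MM O)ˣ} (h : evM k c (T : MM O) = 1) :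
    evM k c (↑T⁻¹ : MM O) = 1 := by
  have h1 := evM_mul k c (T : MM O) ↑T⁻¹
  rw [Units.mul_inv, evM_one, h, one_mul] at h1
  exact h1.symm

theorem pd_inv_zero {k : Fin 4} {T : (MM O)ˣ} (h : pd k (T : MM O) = 0) :
    pd k (↑T⁻¹ : MM O) = 0 := by
  rw [pd_inv, h, mul_zero, zero_mul, neg_zero]

theorem pd_mul_zero {k : Fin 4} {x y : MM O} (h : pd k x = 0) (h' : pd k y = 0) :
    pd k (x * y) = 0 := by
  rw [pd_mul, h, h', mul_zero, zero_mul, add_zero]

variable {a : Ideal O} (ha : IsNilpotent a) {K : Set Pt} (hK : Cx K) {A : F1 O} (hA : Good1 K A)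
  (hA' : In1 K a A) {b : Ideal O}

include ha in
/-- solutions of the transport equation modulo an ideal -/
theorem ode_mod {p : Pt} {k : Fin 4} (c : Bool) (h : InI a (A p k)) {x : MM O}
    (hx : InI b (pd k x - x * A p k)) : InI b (x - evM k c x * inn A p k c) := by
  obtain ⟨h1, h2⟩ := inn_spec ha c h
  set T := inn A p k c
  have h3 : pd k (x * (↑T⁻¹ : MM O)) = (pd k x - x * A p k) * (↑T⁻¹ : MM O) := by
    rw [pd_mul, pd_inv, h1, ← mul_assoc (↑T⁻¹ : MM O), Units.inv_mul, one_mul, sub_mul, mul_neg,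
      mul_assoc, sub_eq_add_neg]
  have h4 : pd k (evM k c x) = 0 := by rw [pd_evM, if_pos rfl]
  have h5 : InI b (x * (↑T⁻¹ : MM O) - evM k c x) := inI_of_pd k c
    (by rw [pd_sub, h3, h4, sub_zero]; exact InC.mul_right hx _)
    (by rw [evM_sub, evM_mul, evM_inv h2, mul_one, evM_of_pd h4]; exact sub_refl _)
  have h6 := sub_mul_right h5 (T : MM O)
  rwa [Units.inv_mul_cancel_right] at h6

include ha in
/-- a transport equation which holds on a face holds on the cell -/
theorem cov_step {q : Pt} {k n : Fin 4} (c : Bool) (h : InI a (A q n)) {x : MM O}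
    (h1 : pd n x = x * A q n) (h2 : InI b (curv A q k n))
    (h3 : InI b (evM n c (pd k x - x * A q k))) : InI b (pd k x - x * A q k) := by
  have h4 : pd n (pd k x - x * A q k) - (pd k x - x * A q k) * A q n = x * curv A q k n := by
    rw [pd_sub, pd_comm, h1, pd_mul, pd_mul, h1]
    simp only [curv, dd1, Ring.lie_def]
    noncomm_ring
  have h5 := ode_mod (b := b) ha c h (x := pd k x - x * A q k) (h4 ▸ InC.mul_left h2 x)
  have h6 := InC.add h5 (InC.mul_right h3 (inn A q n c : MM O))
  rwa [sub_add_cancel] at h6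

theorem at0_inn {p : Pt} {k : Fin 4} (ha : IsNilpotent a) (h : InI a (A p k)) :
    at0U (inn A p k false) = 1 := by
  refine Units.ext ?_
  rw [coe_at0U, ← at0_evM k, (inn_spec ha false h).2, at0_one, Units.val_one]

include ha hK hA hA'

omit hK in
theorem inn_even {p : Pt} (hp : p ∈ K) {k j : Fin 4} (c : Bool) (hk : Odd (p k)) (hj : Even (p j)) :
    pd j (inn A p k c : MM O) = 0 :=
  inn_indep ha c (hA' p hp k hk) (fun h => Int.not_odd_iff_even.mpr hj (h ▸ hk))
    (hA.indep p hp k j hk hj)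

omit hK in
theorem pd_pe {v v' : Pt} (h : PAdj K v v') (j : Fin 4) : pd j (pe A v v' : MM O) = 0 := by
  obtain ⟨m, k, c, h1, h2, h3, rfl, rfl⟩ := pAdj_cases h
  rw [pe_face A c h2, Units.val_mul]
  by_cases hj : j = k
  · rw [hj, pd_mul, pd_inv, (inn_spec ha c (hA' m h1 k h2)).1,
      (inn_spec ha (!c) (hA' m h1 k h2)).1, ← mul_assoc (↑(inn A m k (!c))⁻¹ : MM O),
      Units.inv_mul, one_mul, mul_neg, mul_assoc, add_neg_cancel]
  · exact pd_mul_zero (inn_even ha hA hA' h1 c h2 (h3 j hj))
      (pd_inv_zero (inn_even ha hA hA' h1 _ h2 (h3 j hj)))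

theorem evFM_inn {p τ : Pt} (hp : p ∈ K) (h : IsFace τ p) {k : Fin 4} (hk : Odd (τ k)) (c : Bool) :
    evFM p τ (inn A p k c : MM O) = inn A τ k c := by
  refine isFace_ind h (fun σ => evFM p σ (inn A p k c : MM O) = inn A σ k c) (evFM_self _ _) ?_
  intro σ m c' hσ hτ hm hm' ih
  have h1 : Odd (σ m) := hm ▸ hm'
  have h4 : Odd (face σ m c' k) := eq_of_odd hτ hk ▸ hk
  have h2 : k ≠ m := fun h3 => by
    rw [h3] at h4
    exact Int.not_odd_iff_even.mpr (even_face h1 c') h4
  have h3 : Odd (σ k) := face_ne σ h2 c' ▸ h4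
  rw [evFM_face hm, ih, inn_face ha hA hA' (hK.isFace hp hσ) h3 h1 h2]

theorem at0_in {p : Pt} (hp : p ∈ K) {k : Fin 4} (c : Bool) (hk : Odd (p k)) :
    (wv (face p k c) = wv p ∧ at0U (step A (face p k c) p) = 1) ∨
      (PAdj K (wv (face p k c)) (wv p) ∧
        at0U (step A (face p k c) p) = at0U (pe A (wv (face p k c)) (wv p))) := by
  have e0 : ∀ c, wv (face p k c) = face (Function.update (wv p) k (p k)) k c := by
    intro c
    funext j
    rw [wv]
    by_cases h : j = k
    · rw [h, if_neg (Int.not_odd_iff_even.mpr (even_face hk c)), face_self, face_self,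
        Function.update_self]
    · rw [face_ne _ h, face_ne _ h, Function.update_of_ne h, wv]
  have e1 : wv (face p k false) = wv p := by
    funext j
    rw [e0]
    by_cases h : j = k
    · rw [h, face_self, Function.update_self, wv, if_pos hk, if_neg Bool.false_ne_true]
    · rw [face_ne _ h, Function.update_of_ne h]
  rw [step_in A c hk]
  cases c
  · exact Or.inl ⟨e1, at0_inn ha (hA' p hp k hk)⟩
  · set m := Function.update (wv p) k (p k) with hm
    have m1 : Odd (m k) := by rwa [hm, Function.update_self]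
    have m2 : IsFace m p := fun j => by
      by_cases h : j = k
      · exact Or.inl (by rw [h, hm, Function.update_self])
      · rw [hm, Function.update_of_ne h]
        exact isFace_wv p j
    have m3 := hK.isFace hp m2
    rw [← e1, e0, e0]
    refine Or.inr ⟨pAdj_face true m3 m1 fun j hj => ?_, ?_⟩
    · rw [hm, Function.update_of_ne hj]
      exact even_wv p j
    · have h1 := pe_face A true m1
      rw [Bool.not_true] at h1
      rw [h1, at0U_mul, at0U_inv, at0_inn ha (hA' m m3 k m1), inv_one, mul_one]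
      refine Units.ext ?_
      rw [coe_at0U, coe_at0U, ← evFM_inn ha hK hA hA' hp m2 m1, at0_evFM]
      intro j
      by_cases h : j = k
      · rw [h, hm, Function.update_self]
        omega
      · rw [hm, Function.update_of_ne h, wv]
        split_ifs <;> omega

theorem up_ind {p : Pt} (hp : p ∈ K) (n : ℕ) :
    (∀ j, Even (upTo p n j) → pd j ((holN (step A) (upTo p) n : (MM O)ˣ) : MM O) = 0) ∧
      at0U (holN (step A) (upTo p) n) = 1 ∧ (FlatAt A b p → ∀ k, Odd (upTo p n k) →
        InI b (pd k ((holN (step A) (upTo p) n : (MM O)ˣ) : MM O) -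
          (holN (step A) (upTo p) n : (MM O)ˣ) * A (upTo p n) k)) := by
  induction n with
  | zero =>
    exact ⟨fun j _ => pd_one j, at0U_one,
      fun _ k hk => absurd hk (Int.not_odd_iff_even.mpr (even_wv p k))⟩
  | succ n ih =>
    obtain ⟨i1, i2, i3⟩ := ih
    rw [holN]
    rcases upTo_cases p n with h | ⟨m, _, hm, h⟩
    · rw [h, step_self, mul_one]
      exact ⟨i1, i2, i3⟩
    · have hq := hK.isFace hp (isFace_upTo p (n + 1))
      have hf := isFace_upTo p (n + 1)
      set U := holN (step A) (upTo p) n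
      set q := upTo p (n + 1)
      rw [h] at i1 i3
      rw [h, step_in A false hm]
      obtain ⟨s1, s2⟩ := inn_spec ha false (hA' q hq m hm)
      have h0 : pd m (U : MM O) = 0 := i1 m (even_face hm false)
      have h1 : pd m ((U * inn A q m false : (MM O)ˣ) : MM O) =
          (U * inn A q m false : (MM O)ˣ) * A q m := by
        rw [Units.val_mul, pd_mul, h0, zero_mul, zero_add, s1, mul_assoc]
      refine ⟨fun j hj => ?_, ?_, fun hF k hk => ?_⟩
      · have h2 : j ≠ m := fun h3 => Int.not_odd_iff_even.mpr hj (h3 ▸ hm)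
        exact pd_mul_zero (i1 j ((face_ne q h2 false).symm ▸ hj))
          (inn_even ha hA hA' hq false hm hj)
      · rw [at0U_mul, i2, at0_inn ha (hA' q hq m hm), one_mul]
      · by_cases h2 : k = m
        · rw [h2, h1]
          exact sub_refl _
        · refine cov_step ha false (hA' q hq m hm) h1
            (hA.curv.inI_face hK hp hf hF k m hk hm) ?_
          have h3 := pd_evM m k false ((U * inn A q m false : (MM O)ˣ) : MM O)
          rw [if_neg h2] at h3
          rw [evM_sub, ← h3, evM_mul, Units.val_mul, evM_mul, s2, mul_one, evM_of_pd h0,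
            ← hA.compat q hq m false k hm hk h2]
          exact i3 hF k ((face_ne q h2 false).symm ▸ hk)

theorem up_indep {p : Pt} (hp : p ∈ K) {j : Fin 4} (hj : Even (p j)) : pd j (Up A p : MM O) = 0 :=
  (up_ind (b := ⊥) ha hK hA hA' hp 4).1 j ((upTo_four p).symm ▸ hj)

theorem at0_up {p : Pt} (hp : p ∈ K) : at0U (Up A p) = 1 :=
  (up_ind (b := ⊥) ha hK hA hA' hp 4).2.1

theorem up_cov {p : Pt} (hp : p ∈ K) (h : FlatAt A b p) {k : Fin 4} (hk : Odd (p k)) :
    InI b (pd k (Up A p : MM O) - Up A p * A p k) := by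
  have h1 := (up_ind (b := b) ha hK hA hA' hp 4).2.2 h k ((upTo_four p).symm ▸ hk)
  rwa [upTo_four] at h1

/-- the frame of a flat cell, restricted to its faces -/
theorem frame {p : Pt} (hp : p ∈ K) (h : FlatAt A b p) : ∃ g : Pt → (MM O)ˣ,
    g (wv p) = 1 ∧ g p = Up A p ∧ (∀ τ τ', IsFace τ p → IsFace τ' p → Adj τ τ' →
      InI b ((g τ * step A τ τ' : (MM O)ˣ) - (g τ' : (MM O)ˣ) : MM O)) ∧
      ∀ τ j, IsFace τ p → Even (τ j) → pd j (g τ : MM O) = 0 := by
  let g : Pt → (MM O)ˣ := fun τ => Units.map (evFM p τ).toMonoidHom (Up A p)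
  have hg : ∀ τ, (g τ : MM O) = evFM p τ (Up A p : MM O) := fun _ => rfl
  have h4 : ∀ τ j, IsFace τ p → Even (τ j) → pd j (g τ : MM O) = 0 := by
    intro τ j hτ hj
    rw [hg, pd_evFM hτ]
    split_ifs with h1
    · rw [up_indep ha hK hA hA' hp (h1 ▸ hj), map_zero]
    · rfl
  have h3 : ∀ τ k c, IsFace τ p → Odd (τ k) →
      InI b ((g (face τ k c) * step A (face τ k c) τ : (MM O)ˣ) - (g τ : (MM O)ˣ) : MM O) := by
    intro τ k c hτ hk
    have h1 := eq_of_odd hτ hk
    have h2 := inI_evFM hτ (up_cov ha hK hA hA' hp h (h1 ▸ hk))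
    have h5 := pd_evFM hτ k (Up A p : MM O)
    rw [if_pos h1] at h5
    rw [map_sub, map_mul, evFM_A hK hA hp hτ hk, ← h5] at h2
    rw [step_in A c hk, Units.val_mul, hg, hg, evFM_face h1]
    exact sub_symm (ode_mod ha c (hA' τ (hK.isFace hp hτ) k hk) h2)
  refine ⟨g, Units.ext ?_, Units.ext (evFM_self _ _), fun τ τ' hτ hτ' hadj => ?_, h4⟩
  · rw [eq_cst_of_pd fun j => h4 _ j (isFace_wv p) (even_wv p j), hg, at0_evFM, ← coe_at0U,
      at0_up ha hK hA hA' hp, Units.val_one, Units.val_one, cst_one]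
    intro j
    rw [wv]
    split_ifs <;> omega
  · rcases adj_cases hadj with rfl | ⟨k, c, hk, rfl⟩ | ⟨k, c, hk, rfl⟩
    · rw [step_self, mul_one]
      exact sub_refl _
    · have h1 := sub_mul_right (h3 τ k c hτ hk) (step A τ (face τ k c) : MM O)
      rw [← Units.val_mul, ← Units.val_mul, step_symm A τ, inv_mul_cancel_right] at h1
      exact sub_symm h1
    · exact h3 τ' k c hτ' hk

end Vale.Agent.P215Z.Flt
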